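import Vale.Agent.P165.Final

namespace Vale.Agent.Results.P165.A_full

open Vale.Agent.P165

universe u

theorem result (V : Type u) [Infinite V] (G : SimpleGraph V) [G.LocallyFinite]
    (hconn : G.Connected)
    (hqt : ∃ S : Finset V, ∀ x, ∃ φ : G ≃g G, ∃ s ∈ S, φ s = x)
    (hna : 0 < hV G) : pc G < pu G :=
  pc_lt_pu hconn hqt hna

end Vale.Agent.Results.P165.A_full
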